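import Vale.Agent.P004F.Pt.Kd

/-! # P004F: additive ring class characters (helper7) -/

set_option linter.all false

open NumberField

noncomputable section

namespace Vale.Agent.P004F

open Vale.Agent.P022 (Qb GQ GK IsConj IsFrob)
open P004K P004R
open Vale.Agent.P027M.S (Inert)
open Vale.Agent.P022D.W (dec)
open Vale.Agent.P022E.GW (Ov Fb Gn)

namespace Pt

theorem cj_sq {c : GQ} (h : IsConj c) : c * c = 1 := by
  obtain ⟨φ, h⟩ := h
  exact AlgEquiv.ext fun x => φ.injective (by rw [AlgEquiv.mul_apply, h, h, Complex.conj_conj]; rfl)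

theorem cj_inv {c : GQ} (h : IsConj c) : c⁻¹ = c := inv_eq_of_mul_eq_one_right (cj_sq h)

variable {K : Type} [Field K] [NumberField K] {A : Type} [AddCommGroup A]

/-- `z` is additive on `GK j` and kills `Hc j c` -/
structure Dh (j : K →+* Qb) (c : ℕ) (z : GQ → A) : Prop where
  add : ∀ g ∈ GK j, ∀ h ∈ GK j, z (g * h) = z g + z h
  ker : ∀ g ∈ Hc j c, z g = 0

namespace Dh

variable {j : K →+* Qb} {c l δ : ℕ} {z : GQ → A} {g h x σ : GQ} {P Q : Ideal (𝓞 Qb)} (d : Dh j c z)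
include d

theorem one : z 1 = 0 := d.ker 1 (one_mem _)

theorem inv (hg : g ∈ GK j) : z g⁻¹ = -z g :=
  eq_neg_of_add_eq_zero_left (by rw [← d.add _ (inv_mem hg) _ hg, inv_mul_cancel, d.one])

theorem pow (hg : g ∈ GK j) (n : ℕ) : z (g ^ n) = n • z g := by
  induction n with
  | zero => simpa using d.one
  | succ n ih => rw [pow_succ, d.add _ (pow_mem hg n) _ hg, ih, succ_nsmul]

theorem mul_ker (hg : g ∈ GK j) (hh : h ∈ Hc j c) : z (g * h) = z g := by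
  rw [d.add _ hg _ hh.1, d.ker _ hh, add_zero]

theorem of_mem (hg : g ∈ GK j) (hh : g⁻¹ * h ∈ Hc j c) : z h = z g := by
  rw [← d.mul_ker hg hh, mul_inv_cancel_left]

theorem cj_in (hx : x ∈ GK j) (hg : g ∈ GK j) : z (x * g * x⁻¹) = z g := by
  rw [d.add _ (mul_mem hx hg) _ (inv_mem hx), d.add _ hx _ hg, d.inv hx]; abel

theorem cj_out (r1 : RC1) (iq : Iq K) (c0 : 0 < c) (hx : x ∉ GK j) (hg : g ∈ GK j) :
    z (x * g * x⁻¹) = -z g := by
  have m := (r1 K j iq c c0).2.2.2.2.1 x hx g hg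
  have := d.add _ m.1 _ (inv_mem hg)
  rwa [mul_inv_cancel_right, d.ker _ m, zero_add, d.inv hg] at this

theorem cj (r1 : RC1) (iq : Iq K) (c0 : 0 < c) (x : GQ) (hg : g ∈ GK j) :
    z (x * g * x⁻¹) = z g ∨ z (x * g * x⁻¹) = -z g :=
  (em (x ∈ GK j)).imp (d.cj_in · hg) (d.cj_out r1 iq c0 · hg)

theorem inert (r2 : RC2) (kd : Kd j δ) (o : Ov l P) (hc : ¬ l ∣ c) (l2 : l ≠ 2) (hδ : ¬ l ∣ δ)
    (hg : Inert P g) : z g = 0 :=
  d.ker _ (Wr.inert_hc r2 kd.iq o hc (Wr.inert_gk kd o l2 hδ hg) hg)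

/-- all Frobenius elements have the same value up to sign -/
theorem fb (r1 : RC1) (r2 : RC2) (kd : Kd j δ) (o : Ov l P) (hc : ¬ l ∣ c) (l2 : l ≠ 2)
    (hδ : ¬ l ∣ δ) (f : Fb l P σ) (m : σ ∈ GK j) (hg : IsFrob l g) : z g = z σ ∨ z g = -z σ := by
  obtain ⟨x, s, i, rfl⟩ := Wr.fb_cj o f hg
  have k := Wr.inert_gk kd o l2 hδ i
  have := d.cj r1 kd.iq (Nat.pos_of_ne_zero fun e => hc (e ▸ dvd_zero l)) x (mul_mem k m)
  rwa [d.add _ k _ m, d.inert r2 kd o hc l2 hδ i, zero_add] at this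

/-- the values on the decomposition groups -/
theorem dec (r1 : RC1) (r2 : RC2) (kd : Kd j δ) (o : Ov l P) (hc : ¬ l ∣ c) (l2 : l ≠ 2)
    (hδ : ¬ l ∣ δ) (f : Fb l P σ) (h0 : σ ∈ GK j → z σ = 0) (o' : Ov l Q)
    (hg : g ∈ GK j ⊓ P022D.W.dec Q) : z g + z g = 0 := by
  have c0 : 0 < c := Nat.pos_of_ne_zero fun e => hc (e ▸ dvd_zero l)
  obtain ⟨t, -, e⟩ := P004S.ex_conj o o'
  have m : t⁻¹ * g * t⁻¹⁻¹ ∈ GK j :=
    (kd.gk _).2 ((P004S.nu_conj _ t⁻¹ g).trans ((kd.gk g).1 hg.1))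
  have k := d.cj r1 kd.iq c0 t⁻¹ hg.1
  rw [inv_inv] at m k
  obtain ⟨n, i, hi, u⟩ := (P004S.lt l P o).2 σ _ f (e g hg.2) _ (r1 K j kd.iq c c0).2.1
  have mi := Wr.inert_gk kd o l2 hδ hi
  have m1 : σ ^ n * i ∈ GK j := by
    have := mul_mem m (inv_mem u.1)
    rwa [mul_inv_rev, inv_inv, mul_inv_cancel_left] at this
  have m2 : σ ^ n ∈ GK j := by simpa using mul_mem m1 (inv_mem mi)
  have a : z (σ ^ n) + z (σ ^ n) = 0 := by
    by_cases s : σ ∈ GK j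
    · rw [d.pow s, h0 s, nsmul_zero, add_zero]
    · have := d.cj_out r1 kd.iq c0 s m2
      rw [← pow_succ', pow_succ, mul_inv_cancel_right] at this
      exact add_eq_zero_iff_eq_neg.2 this
  rw [d.of_mem m1 u, d.add _ m2 _ mi, d.inert r2 kd o hc l2 hδ hi, add_zero] at k
  rcases k with k | k
  · rwa [← k]
  · rwa [k, ← neg_add, neg_eq_zero] at a

end Dh

end Pt

theorem Fld.Ad.dh {e : Crv} {b : Fld e} {n c i : ℕ} {χ : GQ → ℕ} (a : b.Ad n c χ) (h : i ≤ n) :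
    Pt.Dh b.j c fun g => (χ g : ZMod (2 ^ i)) :=
  ⟨fun g hg k hk => by
    rw [← Nat.cast_add, ZMod.natCast_eq_natCast_iff]
    exact (a.add g hg k hk).of_dvd (pow_dvd_pow 2 h), fun g hg =>
    (ZMod.natCast_eq_zero_iff _ _).2 ((pow_dvd_pow 2 h).trans (a.ker g hg))⟩

end Vale.Agent.P004F
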