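import Vale.Agent.P004F.Pt.Pert
import Vale.Agent.P004F.Pt.Dh
import Vale.Agent.P004F.St

/-! # P004F, row PE: the extra prime (helper7) -/

set_option linter.all false

open NumberField Matrix

noncomputable section

namespace Vale.Agent.P004F.Pt

open Vale.Agent.P022 (Qb GQ GK IsConj IsFrob)
open P004K P004R
open Vale.Agent.P027M.S (Inert)
open Vale.Agent.P022D.W (dec)
open Vale.Agent.P022E.GW (Ov Fb Gn)
open P004S (Tr)

variable {e : Crv} (b : Fld e)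

/-- the good elements -/
theorem ex_nz : ∃ m N : ℕ, N ≠ 0 ∧
    Nz b.j (e.rep.Kn (m + 1)) (fun g => En.Gq e.rp m g ∧ Tr e.rp 1 g) N := by
  obtain ⟨u, u1, u2, u3⟩ := b.ex_big
  obtain ⟨m, hm⟩ := u2.gq e.rep one_ne_zero
  have := e.rep.Kn_normal 1
  refine ⟨m, (e.rep.Kn 1).index, P004S.idx_ne (e.rep.Kn_open 1), e.rep.Kn_open _,
    fun g v hv h => ⟨h.1.mul e.rep hv, e.rep.tr_mul h.2 (P004S.Tr.mono hv (by omega))⟩,
    u, u1, fun n y hy => u3 n y (.inr hy), fun g hg => ?_⟩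
  obtain ⟨i, -, hi⟩ := hm (g ^ (e.rep.Kn 1).index) (by
    rw [En.ep_pow, En.ep_of e.rep (a := 1) fun n z hz => (hg n z hz).trans (pow_one z).symm]
    simp)
  exact ⟨1 * i, hi, e.rep.tr_mul ((e.rep.Kn 1).pow_index_mem g)
    ((e.rep.Kn 1).pow_mem (P004S.Tr.mono u2.tr (by omega)) _)⟩

theorem gq_nd {m l : ℕ} {P : Ideal (𝓞 Qb)} {g : GQ} (o : Ov l P) (h : l ∉ e.S) (f : Fb l P g)
    (k : En.Gq e.rp m g) {n : ℕ} (hn : 2 * m < n) : ¬ (2 : ℤ) ^ n ∣ ((l : ℤ) + 1) ^ 2 - e.a l ^ 2 := by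
  obtain ⟨t1, t2⟩ := e.tr_fb o h f
  obtain ⟨k1, k2⟩ := k
  rw [t1, t2] at k1 k2
  intro d
  have h1 := (Padic.norm_int_le_pow_iff_dvd (p := 2) _ n).2 (by exact_mod_cast d)
  have h2 := mul_le_mul k1 k2 (by positivity) (norm_nonneg _)
  rw [← norm_mul, show (1 - (e.a l : ℚ_[2]) + l) * (1 + e.a l + l) =
    ((((l : ℤ) + 1) ^ 2 - e.a l ^ 2 : ℤ) : ℚ_[2]) by push_cast; ring, ← pow_add] at h2
  have h3 := h2.trans h1
  rw [_root_.zpow_neg, zpow_natCast, ← inv_pow, Nat.cast_ofNat, ← one_div] at h3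
  exact absurd h3 (not_le.2 (pow_lt_pow_right_of_lt_one₀ (by norm_num) (by norm_num) (by omega)))

theorem ex_val {a m : ℕ} (h : ¬ 2 ^ m ∣ a) : ∃ v < m, 2 ^ v ∣ a ∧ ¬ 2 ^ (v + 1) ∣ a := by
  induction m with
  | zero => simp at h
  | succ m ih =>
    by_cases k : 2 ^ m ∣ a
    · exact ⟨m, m.lt_succ_self, k, h⟩
    · obtain ⟨v, a, b⟩ := ih k
      exact ⟨v, a.trans m.lt_succ_self, b⟩

theorem val_mod {n : ℕ} {x : ZMod (2 * 2 ^ (n + 1))} {a : ℕ} (h : x = a) : x.val ≡ a [MOD 2 ^ n] := by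
  rw [h, ZMod.val_natCast]
  exact (Nat.mod_modEq _ _).of_dvd ⟨4, by ring⟩

/-- **row PE** -/
theorem pe (r1 : RC1) (r2 : RC2) (r3 : RC3) : PE := by
  classical
  intro e b m
  obtain ⟨m₀, N, N0, nz⟩ := ex_nz b
  refine ⟨N, m + 2 * m₀ + 2, N0, fun y n c χ hn tw => ?_⟩
  have kd := b.kd
  have c0 : 0 < c := zero_lt_one.trans tw.one
  have ex (l : ℕ) : ∃ P φ, l.Prime → Ov l P ∧ Fb l P φ := by
    by_cases hl : l.Prime
    · obtain ⟨P, o⟩ := Mu.ex_pl hl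
      obtain ⟨φ, f⟩ := P022D.W.exists_phi o.1 o.2.1 o.2.2
      exact ⟨P, φ, fun _ => ⟨o, f⟩⟩
    · exact ⟨⊥, 1, fun a => absurd a hl⟩
  choose P φ hP using ex
  obtain ⟨g, g1, hg⟩ := pert r2 r3 kd (S := e.S.toFinset ∪ c.primeFactors.filter fun l => φ l ∈ b.Γ)
    (P := fun l => if l ∈ e.S then e.P l else P l) (φ := fun l => if l ∈ e.S then b.φ l else φ l)
    (fun p hp => by
      split_ifs with h
      · exact ⟨e.ov p h, b.le p h, b.ch.frb p h⟩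
      · obtain ⟨a, a'⟩ := Finset.mem_filter.1 ((Finset.mem_union.1 hp).resolve_left
          (mt List.mem_toFinset.1 h))
        obtain ⟨o, f⟩ := hP p (Nat.prime_of_mem_primeFactors a)
        exact ⟨o, Wr.dec_gk kd o (e.ne_two h) (tw.gp p a).cop f a' o, f⟩)
    (Finset.mem_union_left _ (List.mem_toFinset.2 e.two)) nz n
    (fun p => if p ∈ e.S ∧ p ≠ 2 then y p else 0) (by simp)
  obtain ⟨τ, τ1, τ2, τ3, τ4⟩ : ∃ τ ∈ b.Γ, (∀ i, Fx {1} (2 ^ i) τ) ∧ Tr e.rp (m₀ + 1) τ ∧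
      ¬ 2 ^ (m + 1) ∣ χ (g * (τ * (b.c * τ * b.c⁻¹)⁻¹)) := by
    by_cases k : 2 ^ (m + 1) ∣ χ g
    swap
    · exact ⟨1, one_mem _, fun _ _ _ => rfl, (e.rep.Kn _).one_mem, by simpa using k⟩
    obtain ⟨l, hl, d⟩ := Nat.exists_prime_and_dvd tw.one.ne'
    have a := Nat.mem_primeFactors.2 ⟨hl, d, c0.ne'⟩
    obtain ⟨o, -⟩ := hP l hl
    obtain ⟨τ, i, t, -⟩ := tw.ram l a _ o
    have l2 := e.ne_two (tw.gp l a).out
    have mτ := b.inert_mem o l2 (tw.gp l a).cop i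
    refine ⟨τ, mτ, Wr.inert_mu o l2 i, e.rep.Kn_uns _ l _ o (mt List.mem_toFinset.1 (tw.gp l a).out)
      τ i, fun k' => t ?_⟩
    have D := tw.toAd.dh (i := m + 1) (by omega)
    have mc := b.Γ_conj mτ b.c
    have := D.add _ g1 _ (mul_mem mτ (inv_mem mc))
    rw [D.add _ mτ _ (inv_mem mc), D.inv mc, D.cj_out r1 b.iq c0 b.c_out mτ, neg_neg,
      (ZMod.natCast_eq_zero_iff _ _).2 k, (ZMod.natCast_eq_zero_iff _ _).2 k', zero_add,
      ← Nat.cast_add, eq_comm, ZMod.natCast_eq_zero_iff, ← two_mul, pow_succ'] at this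
    exact Nat.dvd_of_mul_dvd_mul_left two_pos this
  have t1 := mul_mem τ1 (inv_mem (b.Γ_conj τ1 b.c))
  obtain ⟨q, Q, ψ, z, hT, o, mψ, f, md, ty, w, ⟨G1, G2⟩, add, ker, rm, hv⟩ :=
    hg τ τ1 b.c b.cc b.c_out τ2 _ t1 rfl
      ((e.rep.Kn _).mul_mem τ3 ((e.rep.Kn _).inv_mem (e.rep.tr_conj τ3 _))) (Hc b.j c)
      (b.T c ∪ b.δ'.primeFactors) (r1 b.K b.j b.iq c c0).2.1
  rw [Finset.mem_union, not_or] at hT
  have qS : q ∉ e.S := fun a => hT.1 (Finset.mem_union_left _ (List.mem_toFinset.2 a))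
  have qc : ¬ q ∣ c := fun a => hT.1 (Finset.mem_union_right _ (Nat.mem_primeFactors.2 ⟨o.1, a, c0.ne'⟩))
  have qδ : ¬ q ∣ b.δ' := fun a => hT.2 (Nat.mem_primeFactors.2 ⟨o.1, a, b.pos.ne'⟩)
  have q2 := e.ne_two qS
  have D : Dh b.j q z := ⟨add, ker⟩
  have dv (i) (hi : i ≤ n) (Q') (o' : Ov q Q') (x) (f' : Fb q Q' x) :
      2 ^ i ∣ χ x ↔ 2 ^ i ∣ χ (g * (τ * (b.c * τ * b.c⁻¹)⁻¹)) := by
    have D := tw.toAd.dh hi
    have := D.fb r1 r2 kd o qc q2 qδ f mψ ⟨Q', o'.2.1, o'.2.2, f'⟩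
    rw [D.of_mem (mul_mem g1 t1) w] at this
    rw [← ZMod.natCast_eq_zero_iff, ← ZMod.natCast_eq_zero_iff]
    rcases this with a | a
    · rw [a]
    · rw [a, neg_eq_zero]
  obtain ⟨v, v1, v2, v3⟩ := ex_val τ4
  refine ⟨q, fun g => (z g).val, ⟨fun g hg h hh => val_mod (by rw [add g hg h hh]; simp),
    fun g hg => by rw [ker g hg]; simp⟩, ⟨v, by omega, o.1, hT.1, qδ,
      fun Q' o' => Wr.dec_gk kd o q2 qδ f mψ o', fun Q' o' x hx => ?_, fun Q' o' x f' =>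
        ⟨(dv v (by omega) Q' o' x f').2 v2, mt (dv (v + 1) (by omega) Q' o' x f').1 v3⟩⟩,
    ⟨qS, qδ, ⟨_, ty, (pow_dvd_pow 2 (by omega : n ≤ n + 3)).trans
      ((Nat.modEq_iff_dvd' o.1.one_le).1 (md.trans (Nat.mod_eq_of_lt
        (Nat.one_lt_two_pow (by omega))).symm).symm)⟩, gq_nd o qS f G1 (by omega)⟩,
    fun Q' o' => ?_, fun p hp p2 => val_mod ?_, ?_, fun l hl Q' o' x hx => ?_⟩
  · obtain ⟨t, -, k⟩ := P004S.ex_conj o o'
    have := e.rep.tr_conj (P004S.lt.dec_le o f (e.rep.Kn_open 1) G2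
      (e.rep.Kn_uns 1 q Q o (mt List.mem_toFinset.1 qS)) (k x hx)) t
    rw [show t * (t⁻¹ * x * t) * t⁻¹ = x by group] at this
    exact e.tr_one.1 this
  · obtain ⟨t, i, k⟩ := rm Q' o'
    refine ⟨t, i, ?_⟩
    have : Fact (1 < 2 * 2 ^ (n + 1)) := ⟨by have := Nat.one_lt_two_pow n.succ_ne_zero; omega⟩
    rw [k, ZMod.val_one, Nat.dvd_one]
    exact (Nat.one_lt_two_pow (by omega)).ne'
  · simpa [hp, p2] using hv p (Finset.mem_union_left _ (List.mem_toFinset.2 hp))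
  · have := hv 2 (Finset.mem_union_left _ (List.mem_toFinset.2 e.two))
    simp only [e.two, if_true, ne_eq, not_true, and_false, if_false, mul_zero] at this
    rw [this]; simp
  · obtain ⟨ol, fl⟩ := hP l o'.1
    have lS := (tw.gp l hl).out
    have := D.dec r1 r2 kd ol (fun a => qc ((Nat.prime_dvd_prime_iff_eq o'.1 o.1).1 a ▸
      Nat.dvd_of_mem_primeFactors hl)) (e.ne_two lS) (tw.gp l hl).cop fl (fun a => by
        simpa [lS] using hv l (Finset.mem_union_right _ (Finset.mem_filter.2 ⟨hl, a⟩))) o' hx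
    rw [← ZMod.natCast_zmod_val (z x), ← Nat.cast_add, ZMod.natCast_eq_zero_iff, ← two_mul] at this
    exact (pow_dvd_pow 2 n.le_succ).trans (Nat.dvd_of_mul_dvd_mul_left two_pos this)

end Vale.Agent.P004F.Pt
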