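import Vale.Agent.P004F.Defs
import Vale.Agent.P004F.En.Big
import Vale.Agent.P004F.En.Lh
import Vale.Agent.P004R.Ext0
import Vale.Agent.P004R.Twr0
import Vale.Agent.P004R.Mu0
import Vale.Agent.P004K.Rc.Cyc

/-! # P004F: basic facts on `Crv` and `Fld` (helper7) -/

set_option linter.all false

open NumberField Matrix
open scoped NumberTheorySymbols

noncomputable section

namespace Vale.Agent.P004F

open Vale.Agent.P022 (Qb GQ GK IsConj IsFrob)
open P004K P004K.Rc P004R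
open Vale.Agent.P027M.S (Inert)
open Vale.Agent.P022D.W (dec)
open Vale.Agent.P022E.GW (Ov Fb Gn)
open P004S (nu kn Rep Tr)

namespace Pt

variable {K : Type} [Field K] [NumberField K] {j : K →+* Qb} {ω : 𝓞 K} {s : 𝓞 K →+* 𝓞 K} {g : GQ}

theorem ex_q (j : K →+* Qb) (h : Iq K) : ∃ ω s, Qd (JJ j) ω s :=
  let ⟨ω, w1, w2⟩ := iq0 j h
  ⟨ω, ex_qd (fun a b h => RingOfIntegers.ext (j.injective (io_inj h))) w1 w2⟩

/-- the elements outside `GK j` act as the conjugation -/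
theorem cj_out (q : Qd (JJ j) ω s) (hg : g ∉ GK j) (a : 𝓞 K) : g (j a) = j (s a) := by
  have h1 : g (j ω) = j (s ω) := by
    obtain ⟨t, ht⟩ := q.tr ω
    obtain ⟨n, hn⟩ := q.nm ω
    have e1 : j ω + j (s ω) = t := by simpa using congrArg (fun x : 𝓞 K => j x) ht
    have e2 : j ω * j (s ω) = n := by simpa using congrArg (fun x : 𝓞 K => j x) hn
    have e3 := congrArg g (show j ω * (t - j ω) = n by rw [← e1, ← e2]; ring)
    rw [map_mul, map_sub, map_intCast, map_intCast] at e3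
    refine sub_eq_zero.1 ((mul_eq_zero.1 (show (g (j ω) - j ω) * (g (j ω) - j (s ω)) = 0 by
      linear_combination -e3 - g (j ω) * e1 + e2)).resolve_left fun e => hg fun x => ?_)
    have k : ∀ a : 𝓞 K, g (j a) = j a := fun a => by
      obtain ⟨u, v, rfl⟩ := q.sp a
      simp [sub_eq_zero.1 e]
    obtain ⟨a, b, -, rfl⟩ := IsFractionRing.div_surjective (A := 𝓞 K) x
    rw [map_div₀, map_div₀, k, k]
  obtain ⟨u, v, rfl⟩ := q.sp a
  simp [h1]

end Pt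

namespace Crv

variable (e : Crv) {l : ℕ} {P : Ideal (𝓞 Qb)} {g : GQ}

theorem rep : Rep e.rp e.S.toFinset :=
  En.rep_ok _ (List.mem_toFinset.2 e.two) fun l hl h d =>
    have h' := mt List.mem_toFinset.2 h
    ((Nat.prime_iff_prime_int.1 hl).dvd_or_dvd d).elim (fun d => h' (((Nat.prime_dvd_prime_iff_eq hl
      Nat.prime_two).1 (by exact_mod_cast d)) ▸ e.two)) (e.bad l hl h').2.1

theorem mt_rp (g : GQ) : P004S.mt e.rp g = (e.r g).map (↑) := rfl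

theorem tr_one : Tr e.rp 1 g ↔ (e.r g).map PadicInt.toZMod = 1 := by
  rw [e.rep.tr_one_iff, show P004S.rb e.rp g = (e.r g).map PadicInt.toZMod from
    Matrix.ext fun i j => P004S.rd_coe _]

theorem ne_two (h : l ∉ e.S) : l ≠ 2 := fun k => h (k ▸ e.two)

theorem r_inert (o : Ov l P) (h : l ∉ e.S) (hg : Inert P g) : e.r g = 1 :=
  Matrix.ext fun i j => Subtype.ext ((congrFun₂ (e.rep.mt_inert o (mt List.mem_toFinset.1 h) hg)
    i j).trans (by simp only [one_apply]; split_ifs <;> rfl))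

theorem tr_fb (o : Ov l P) (h : l ∉ e.S) (f : Fb l P g) :
    (P004S.mt e.rp g).trace = e.a l ∧ P004S.ep e.rp g = l :=
  ⟨by
    have := congrArg (fun x : ℤ_[2] => (x : ℚ_[2])) ((e.bad l o.1 h).2.2 g ⟨P, o.2.1, o.2.2, f⟩)
    simp only [trace_fin_two, PadicInt.coe_add, PadicInt.coe_intCast] at this
    rw [trace_fin_two]; exact this,
  (e.rep.frob l o.1 (mt List.mem_toFinset.1 h) g ⟨P, o.2.1, o.2.2, f⟩).1⟩

end Crv

namespace Fld

variable {e : Crv} (b : Fld e) {l : ℕ} {P : Ideal (𝓞 Qb)} {g : GQ}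

theorem pos : 0 < b.δ' := Nat.pos_of_ne_zero b.adm.sq.ne_zero

theorem jθ : b.j b.θ ^ 2 = ((-(b.δ' : ℤ) : ℤ) : Qb) := by
  simpa using congrArg (fun x : 𝓞 b.K => b.j x) b.th

theorem kd : Kd b.j b.δ' where
  iq := b.iq
  upm := b.upm
  sq := b.adm.sq
  m8 := b.adm.m8
  rt := ⟨b.θ, by simpa using congrArg (fun x : 𝓞 b.K => (x : b.K)) b.th⟩
  gk g := by
    rw [P004S.nu_eq_zero b.jθ]
    refine ⟨fun h => h _, fun h => by_contra fun k => ?_⟩
    obtain ⟨ω, s, q⟩ := Pt.ex_q b.j b.iq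
    have h1 := Pt.cj_out q k b.θ
    rw [Xt.s_th q b.pos b.th, h] at h1
    have h2 := b.jθ
    rw [self_eq_neg.1 (h1.trans (by simp))] at h2
    exact b.pos.ne' (by simpa using h2.symm)

theorem Γ_eq : b.Γ = kn (-(b.δ' : ℤ)) := Subgroup.ext b.kd.gk

theorem Γ_open : IsOpen (b.Γ : Set GQ) := b.Γ_eq ▸ P004S.kn_open _

theorem Γ_conj (hg : g ∈ b.Γ) (t : GQ) : t * g * t⁻¹ ∈ b.Γ :=
  (b.kd.gk _).2 ((P004S.nu_conj _ t g).trans ((b.kd.gk g).1 hg))

theorem c_out : b.c ∉ b.Γ := fun a => one_ne_zero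
  ((P004S.nu_neg_conj (neg_neg_of_pos (Int.natCast_pos.2 b.pos)) b.cc).symm.trans ((b.kd.gk _).1 a))

theorem mul_out {h : GQ} (hg : g ∉ b.Γ) (hh : h ∉ b.Γ) : g * h ∈ b.Γ := by
  rw [b.kd.gk] at *
  rw [P004S.nu_mul, (P004S.z2 _).resolve_left hg, (P004S.z2 _).resolve_left hh]; rfl

theorem inert_mem (o : Ov l P) (h2 : l ≠ 2) (hd : ¬ l ∣ b.δ') (hg : Inert P g) : g ∈ b.Γ :=
  (b.kd.gk g).2 (P004S.nu_inert o h2 (fun d => hd (Int.natCast_dvd_natCast.1 (dvd_neg.1 d))) hg)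

theorem out_S (hl : l.Prime) (hd : l ∣ b.δ') : l ∉ e.S := fun m => by
  have h2 : l ≠ 2 := by have := b.adm.m8; rintro rfl; omega
  exact Mu.nd_of hl (.inr (b.adm.spl l m h2)) (dvd_neg.2 (Int.natCast_dvd_natCast.2 hd))

/-- the image of `Γ` is the whole image -/
theorem ex_ker : ∃ τ ∉ b.Γ, e.r τ = 1 := by
  obtain ⟨l, hl, d⟩ := Nat.exists_prime_and_dvd (n := b.δ') (by have := b.adm.m8; omega)
  obtain ⟨P, o⟩ := Mu.ex_pl hl
  obtain ⟨τ, t⟩ := P022E.GW.Tg.ex_gn' o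
  refine ⟨τ, fun m => one_ne_zero ((P004S.nu_tau o (e.ne_two (b.out_S hl d))
    (Int.squarefree_natAbs.1 (by simpa using b.adm.sq))
      (dvd_neg.2 (Int.natCast_dvd_natCast.2 d)) t).symm.trans ((b.kd.gk τ).1 m)),
    e.r_inert o (b.out_S hl d) t.1⟩

theorem onto (g : GQ) : ∃ x ∈ b.Γ, e.r x = e.r g := by
  obtain ⟨τ, t, k⟩ := b.ex_ker
  by_cases m : g ∈ b.Γ
  · exact ⟨g, m, rfl⟩
  · exact ⟨g * τ, b.mul_out m t, by rw [map_mul, k, mul_one]⟩

/-- a big element which fixes all roots of order a power of two -/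
theorem ex_big : ∃ u ∈ b.Γ, En.Big e.rp u ∧
    ∀ (m : ℕ) (y : Qb), y ^ 2 ^ m = 1 ∨ y ^ 2 ^ m ∈ b.j '' {0}ᶜ → u y = y := by
  obtain ⟨k, hk⟩ := En.big (hq e.par.disc)
  refine En.Big.kum (r := e.rp) hk e.rep (P004S.cyc_ep _ _ e.rep) b.Γ_open (fun w hw => ?_) _ ?_
  · obtain ⟨g, h⟩ := e.rep.irr w hw
    obtain ⟨x, m, k⟩ := b.onto g
    exact ⟨x, m, by rw [e.mt_rp, k]; exact h⟩
  · rintro _ ⟨a, h, rfl⟩
    exact ⟨(map_ne_zero _).2 h, fun g hg => hg a⟩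

end Fld

end Vale.Agent.P004F
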