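import Vale.Agent.P004R.Ext
import Vale.Agent.P004F.Pt.Kd

/-!
# P004F, row PERT: one more prime, with a character of prescribed values (helper7)
-/

set_option autoImplicit false
set_option linter.all false

open NumberField IsDedekindDomain
open scoped NumberTheorySymbols nonZeroDivisors

noncomputable section

namespace Vale.Agent.P004F.Pt

open Vale.Agent.P022 (Qb GQ GK below IsConj)
open P004K P004K.Rc P004R P004R.Xt
open Vale.Agent.P027M.S (Inert)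
open Vale.Agent.P022D.W (dec)
open Vale.Agent.P022E.GW (Ov Fb Gn)
open Vale.Agent.P004S (nu ov_dvd UnS)

/-- good elements in every coset of the group which fixes all roots of order a power of two -/
structure Nz {K : Type} [Field K] (j : K →+* Qb) (U : Subgroup GQ) (G : GQ → Prop) (N : ℕ) :
    Prop where
  opn : IsOpen (U : Set GQ)
  stb : ∀ g, ∀ u ∈ U, G g → G (g * u)
  ex : ∃ h ∈ GK j, (∀ n, Fx (j '' {0}ᶜ) (2 ^ n) h) ∧
    ∀ g, (∀ i, Fx {1} (2 ^ i) g) → ∃ k : ℕ, G (g ^ N * h ^ k)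

section kummer

variable {N l : ℕ} {ζ u : Qb} {g g' : GQ} {P : Ideal (𝓞 Qb)}

theorem km_comp {k k' : ZMod N} [NeZero N] (hζ : IsPrimitiveRoot ζ N) (hg : Fx {1} N g)
    (a : Km ζ g u k) (b : Km ζ g' u k') : Km ζ (g * g') u (k + k') := fun y hy => by
  rw [AlgEquiv.mul_apply, b y hy, map_mul, map_pow, hg ζ hζ.pow_eq_one, a y hy, ZMod.val_add,
    ← pow_eq_pow_mod _ hζ.pow_eq_one, pow_add]
  ring

theorem fx_mul {A : Set Qb} (a : Fx A N g) (b : Fx A N g') : Fx A N (g * g') := fun y hy => by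
  rw [AlgEquiv.mul_apply, b y hy, a y hy]

theorem fx_pow {A : Set Qb} (a : Fx A N g) (i : ℕ) : Fx A N (g ^ i) := fun y hy =>
  (MulAction.stabilizer GQ y).pow_mem (a y hy) i

theorem km_pow {k : ZMod N} [NeZero N] (hζ : IsPrimitiveRoot ζ N) (hg : Fx {1} N g)
    (a : Km ζ g u k) (i : ℕ) : Km ζ (g ^ i) u ((i : ZMod N) * k) := by
  induction i with
  | zero => simpa using km_zero (N := N) (ζ := ζ) (g := 1) (u := u) fun _ _ => rfl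
  | succ i ih => rw [pow_succ', Nat.cast_succ, add_mul, one_mul, add_comm]; exact km_comp hζ hg a ih

/-- the inertia group fixes the roots of units -/
theorem fix_in (o : Ov l P) (hi : Inert P g) (hN : ¬ l ∣ N) {a b : 𝓞 Qb} (ha : g a = a)
    (hb : g b = b) (a0 : a ∉ P) (b0 : b ∉ P) {y : Qb} (hy : y ^ N = a / b) : g y = y := by
  obtain ⟨M, rfl⟩ := Nat.exists_eq_succ_of_ne_zero (fun k => hN (k ▸ dvd_zero l) : N ≠ 0)
  have b1 : (b : Qb) ≠ 0 := fun k => b0 (by rw [show b = 0 from RingOfIntegers.ext k]; exact P.zero_mem)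
  have e1 : (y * b) ^ (M + 1) = (a * b ^ M : 𝓞 Qb) := by
    rw [mul_pow, hy, RingOfIntegers.coe_eq_algebraMap (_ * _), map_mul, map_pow, pow_succ']
    exact (mul_assoc _ _ _).symm.trans (by rw [div_mul_cancel₀ _ b1])
  obtain ⟨z, hz, e2⟩ := ex_int M.succ_ne_zero e1
  have z0 : z ∉ P := fun k => (o.2.1.mem_or_mem (e2 ▸ P.pow_mem_of_mem k _ M.succ_pos)).elim a0
    fun k => b0 (o.2.1.mem_of_pow_mem _ k)
  have y0 : (z : Qb) ≠ 0 := fun k => z0 (by rw [show z = 0 from RingOfIntegers.ext k]; exact P.zero_mem)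
  have h : g ((z : Qb) ^ (M + 1)) = z ^ (M + 1) := by
    rw [hz, e1, RingOfIntegers.coe_eq_algebraMap (_ * _), map_mul, map_pow, map_mul, map_pow]
    exact congrArg₂ (fun s t => s * t ^ M) ha hb
  have e3 : (g z / z) ^ (M + 1) = 1 := by rw [div_pow, ← map_pow, h, div_self (pow_ne_zero _ y0)]
  obtain ⟨η, hη, e0⟩ := ex_int M.succ_ne_zero (w := 1) e3
  have e4 : g • z = η * z := RingOfIntegers.ext (by
    rw [smul_coe, RingOfIntegers.coe_eq_algebraMap (η * z), map_mul]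
    exact (div_mul_cancel₀ _ y0).symm.trans (congrArg (· * (z : Qb)) hη.symm))
  have e5 := hi z
  rw [e4, ← sub_one_mul] at e5
  have e6 : g z = z := by
    rw [← smul_coe, e4, unit_one o hN e0 ((o.2.1.mem_or_mem e5).resolve_right z0), one_mul]
  rw [hz, map_mul, hb] at e6
  exact mul_right_cancel₀ b1 e6

theorem nd_two (o : Ov l P) (l2 : l ≠ 2) (n : ℕ) : ¬ l ∣ 2 ^ n := fun h =>
  l2 ((Nat.prime_dvd_prime_iff_eq o.1 Nat.prime_two).1 (o.1.dvd_of_dvd_pow h))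

theorem fx_in (o : Ov l P) (hi : Inert P g) (hN : ¬ l ∣ N) : Fx {1} N g := fun y hy =>
  fix_in o hi hN (a := 1) (b := 1) (by simp) (by simp) (Mu.one_nm o) (Mu.one_nm o) (by simpa using hy)

/-- a Frobenius element which fixes a primitive root -/
theorem mod_one (o : Ov l P) (f : Fb l P g) (hN : ¬ l ∣ N) (N1 : 1 < N) (hζ : IsPrimitiveRoot ζ N)
    (h : g ζ = ζ) : l % N = 1 := by
  obtain ⟨z, rfl, e⟩ := ex_int (by omega : N ≠ 0) (w := 1) hζ.pow_eq_one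
  have z0 : z ∉ P := fun k => Mu.one_nm o (e ▸ P.pow_mem_of_mem k N (by omega))
  have h1 := P.neg_mem (f z)
  obtain ⟨m, rfl⟩ := Nat.exists_eq_succ_of_ne_zero o.1.ne_zero
  rw [show g • z = z from RingOfIntegers.ext h, neg_sub, pow_succ, ← sub_one_mul] at h1
  have h2 := unit_one o hN (η := z ^ m) (by rw [← pow_mul, mul_comm, pow_mul, e, one_pow])
    ((o.2.1.mem_or_mem h1).resolve_right z0)
  obtain ⟨k, rfl⟩ := hζ.dvd_of_pow_eq_one m (by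
    simpa using congrArg (algebraMap (𝓞 Qb) Qb) h2)
  rw [Nat.succ_eq_add_one, Nat.mul_add_mod, Nat.mod_eq_of_lt N1]

theorem cj_root (c : IsConj g) (N0 : N ≠ 0) {z : Qb} (h : z ^ N = 1) : g z = z⁻¹ := by
  obtain ⟨φ, c⟩ := c
  refine φ.injective ?_
  rw [c, map_inv₀, Complex.inv_eq_conj (Complex.norm_eq_one_of_pow_eq_one (by
    rw [← map_pow, h, map_one]) N0)]

theorem fx_inv {A : Set Qb} (a : Fx A N g) : Fx A N g⁻¹ := fun y hy =>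
  (MulAction.stabilizer GQ y).inv_mem (a y hy)

theorem fx_cj (a : Fx {1} N g) (k : GQ) : Fx {1} N (k * g * k⁻¹) := fun y hy => by
  rw [AlgEquiv.mul_apply, AlgEquiv.mul_apply, a _ (by
    rw [← map_pow, Set.mem_singleton_iff.1 hy, map_one]; rfl), ← AlgEquiv.mul_apply, mul_inv_cancel]
  rfl

/-- the symbol is invariant under the complex conjugation -/
theorem km_cj {v : ZMod N} [NeZero N] (hζ : IsPrimitiveRoot ζ N) {k : GQ} (c : IsConj k)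
    (u0 : u ≠ 0) (e : k u = u⁻¹) (a : Km ζ g u v) {y : Qb} (hy : y ^ N = u) :
    (g * (k * g * k⁻¹)⁻¹) y = y := by
  have z0 : ζ ^ v.val ≠ 0 := pow_ne_zero _ (hζ.ne_zero (NeZero.ne N))
  have b (y : Qb) (hy : y ^ N = u) : (k * g * k⁻¹) y = ζ ^ v.val * y := by
    have e1 : (k⁻¹ y)⁻¹ ^ N = u := by
      rw [inv_pow, ← map_pow, hy, inv_eq_iff_eq_inv, ← e, eq_comm]
      have : k (k u) = u := by rw [e, map_inv₀, e, inv_inv]
      exact k.eq_symm_apply.2 this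
    have e2 := a _ e1
    rw [map_inv₀, inv_eq_iff_eq_inv, mul_inv, inv_inv] at e2
    rw [AlgEquiv.mul_apply, AlgEquiv.mul_apply, e2, map_mul, map_inv₀, map_pow,
      cj_root c (NeZero.ne N) hζ.pow_eq_one, inv_pow, inv_inv, ← AlgEquiv.mul_apply, mul_inv_cancel]
    rfl
  have h : ((ζ ^ v.val)⁻¹ * y) ^ N = u := by
    rw [mul_pow, inv_pow, ← pow_mul, mul_comm v.val, pow_mul, hζ.pow_eq_one, one_pow, inv_one,
      one_mul, hy]
  have e3 := b _ h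
  rw [mul_inv_cancel_left₀ z0] at e3
  rw [AlgEquiv.mul_apply, show (k * g * k⁻¹)⁻¹ y = (ζ ^ v.val)⁻¹ * y from
    (k * g * k⁻¹).symm_apply_eq.2 e3.symm, a _ h, mul_inv_cancel_left₀ z0]

end kummer

variable {K : Type} [Field K] [NumberField K] {j : K →+* Qb} {ω θ : 𝓞 K} {s : 𝓞 K →+* 𝓞 K}
  {δ l N : ℕ} {P : Ideal (𝓞 Qb)} {g : GQ} {ζ : Qb}

theorem km_in [NeZero N] (o : Ov l P) (hi : Inert P g) (hg : g ∈ GK j) (hN : ¬ l ∣ N) {a : 𝓞 K}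
    {x : ℤ} (e : a * s a = x) (hx : ¬ (l : ℤ) ∣ x) : Km ζ g (j (qu s a)) (0 : ZMod N) := by
  have : iz j a * iz j (s a) ∉ P := by
    rw [← map_mul, e, map_intCast]; exact fun k => hx (ov_dvd o k)
  exact km_zero fun y hy => fix_in o hi hN (a := iz j a) (b := iz j (s a)) (hg _) (hg _)
    (fun k => this (P.mul_mem_right _ k)) (fun k => this (P.mul_mem_left _ k))
    (hy.trans (map_div₀ j _ _))

theorem par_qu {M : ℕ} [NeZero M] (q : Qd (JJ j) ω s) (hζ : IsPrimitiveRoot ζ (2 * M))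
    (hg : g ∈ GK j) {a : 𝓞 K} {x : ℤ} (x0 : x ≠ 0) (e : a * s a = x) {k : ZMod (2 * M)}
    (h : Km ζ g (j (qu s a)) k) : (k.val : ZMod 2) = nu x g := by
  have a0 : a ≠ 0 := fun k => x0 (by rw [k, zero_mul] at e; exact_mod_cast e.symm)
  exact km_par hζ x0 (hg (s a : 𝓞 K)) (by
    rw [← map_pow, ← map_mul, qu, pow_two, ← mul_assoc, div_mul_cancel₀ _ (s_ne q a0),
      ← map_intCast j]
    exact congrArg j (by simpa using congrArg (algebraMap (𝓞 K) K) e)) h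

/-- an element of the inertia group with a prescribed symbol -/
theorem ex_tau {n : ℕ} (q : Qd (JJ j) ω s) (hζ : IsPrimitiveRoot ζ (2 * 2 ^ (n + 1))) (o : Ov l P)
    (l2 : l ≠ 2) (hd : dec P ≤ GK j) {a : 𝓞 K} {x : ℤ} (e : a * s a = (l * x : ℤ))
    (hx : ¬ (l : ℤ) ∣ x) (b : ZMod (2 * 2 ^ (n + 1))) :
    ∃ τ, Inert P τ ∧ Km ζ τ (j (qu s a)) b := by
  obtain ⟨τ, t⟩ := P022E.GW.Tg.ex_gn' o
  have l0 : (l : ℤ) ≠ 0 := Int.natCast_ne_zero.2 o.1.ne_zero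
  have x0 : x ≠ 0 := fun k => hx (k ▸ dvd_zero _)
  have a0 : a ≠ 0 := fun k => mul_ne_zero l0 x0 (by rw [k, zero_mul] at e; exact_mod_cast e.symm)
  have m := hd (P004S.inert_dec t.1)
  have f := fx_in o t.1 (pow_succ' 2 (n + 1) ▸ nd_two o l2 _)
  obtain ⟨k, hk⟩ := km_ex hζ f (qu_ne q a0) (m _)
  have od := par_qu q hζ m (mul_ne_zero l0 x0) e hk
  rw [P004S.nu_mul_left l0 x0, P004S.nu_gn o t, P004S.nu_inert o l2 hx t.1, add_zero,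
    ZMod.natCast_eq_one_iff_odd] at od
  have un := (ZMod.isUnit_iff_coprime _ _).2
    (Nat.Coprime.mul_right od.coprime_two_right (od.coprime_two_right.pow_right (n + 1)))
  rw [ZMod.natCast_zmod_val] at un
  obtain ⟨u, hu⟩ := un.exists_left_inv
  refine ⟨τ ^ (b * u).val, (P022.H443.inP P).pow_mem t.1 _, ?_⟩
  have := km_pow hζ f hk (b * u).val
  rwa [ZMod.natCast_zmod_val, mul_assoc, hu, mul_one] at this

/-- prescribed symbols at finitely many primes -/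
theorem ex_g {n : ℕ} (q : Qd (JJ j) ω s) (hζ : IsPrimitiveRoot ζ (2 * 2 ^ (n + 1)))
    {P : ℕ → Ideal (𝓞 Qb)} {β : ℕ → 𝓞 K} {x : ℕ → ℤ} (b : ℕ → ZMod (2 * 2 ^ (n + 1)))
    (S : Finset ℕ) (h : ∀ p ∈ S, Ov p (P p) ∧ p ≠ 2 ∧ dec (P p) ≤ GK j ∧
      β p * s (β p) = (p * x p : ℤ) ∧ ∀ l ∈ S, ¬ (l : ℤ) ∣ x p) :
    ∃ g ∈ GK j, (∀ i, Fx {1} (2 ^ i) g) ∧ (∀ (a : 𝓞 K) (y : ℤ), a * s a = y →
      (∀ l ∈ S, ¬ (l : ℤ) ∣ y) → Km ζ g (j (qu s a)) (0 : ZMod (2 * 2 ^ (n + 1)))) ∧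
      ∀ p ∈ S, Km ζ g (j (qu s (β p))) (b p) := by
  induction S using Finset.induction_on with
  | empty => exact ⟨1, one_mem _, fun _ _ _ => rfl, fun _ _ _ _ => km_zero fun _ _ => rfl, by simp⟩
  | insert p S hp ih =>
    obtain ⟨g, g1, g2, g3, g4⟩ := ih fun l m =>
      let ⟨a, b, c, d, e⟩ := h l (Finset.mem_insert_of_mem m)
      ⟨a, b, c, d, fun l' m' => e l' (Finset.mem_insert_of_mem m')⟩
    obtain ⟨o, p2, hd, e, nd⟩ := h p (Finset.mem_insert_self _ _)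
    obtain ⟨τ, t, k⟩ := ex_tau q hζ o p2 hd e (nd p (Finset.mem_insert_self _ _)) (b p)
    have m := hd (P004S.inert_dec t)
    have f : Fx {1} (2 * 2 ^ (n + 1)) g := pow_succ' 2 (n + 1) ▸ g2 _
    have hN : ¬ p ∣ 2 * 2 ^ (n + 1) := pow_succ' 2 (n + 1) ▸ nd_two o p2 _
    have nd2 : ∀ l ∈ insert p S, ∀ l' ∈ insert p S, l ≠ l' → ¬ (l : ℤ) ∣ l' * x l' :=
      fun l a l' a' ne d => ((Nat.prime_iff_prime_int.1 (h l a).1.1).dvd_or_dvd d).elim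
        (fun d => ne ((Nat.prime_dvd_prime_iff_eq (h l a).1.1 (h l' a').1.1).1
          (Int.natCast_dvd_natCast.1 d))) ((h l' a').2.2.2.2 l a)
    refine ⟨g * τ, mul_mem g1 m, fun i => fx_mul (g2 i) (fx_in o t (nd_two o p2 i)),
      fun a y e1 e2 => ?_, fun l hl => ?_⟩
    · simpa using km_comp hζ f (g3 a y e1 fun l m => e2 l (Finset.mem_insert_of_mem m))
        (km_in o t m hN e1 (e2 p (Finset.mem_insert_self _ _)))
    rcases Finset.mem_insert.1 hl with rfl | a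
    · simpa using km_comp hζ f (g3 _ _ e fun l' m' => nd2 l' (Finset.mem_insert_of_mem m') l hl
        fun e => hp (e ▸ m')) k
    · simpa using km_comp hζ f (g4 l a) (km_in o t m hN (h l hl).2.2.2.1
        (nd2 p (Finset.mem_insert_self _ _) l hl fun e => hp (e ▸ a)))

/-- the symbol of one Frobenius element -/
theorem lam1 {n : ℕ} (q : Qd (JJ j) ω s) (hζ : IsPrimitiveRoot ζ (2 * 2 ^ (n + 1))) (o : Ov l P)
    (hg : g ∈ GK j) (f : Fb l P g) (hl : l % (2 * 2 ^ (n + 1)) = 1) :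
    ∃ lam : 𝓞 K → ZMod (2 * 2 ^ (n + 1)), Lm s l lam ∧ ∀ a ≠ 0, Km ζ g (j (qu s a)) (lam a) := by
  have h1 := fx_one o f hl
  have ex (a : 𝓞 K) : ∃ x : ZMod (2 * 2 ^ (n + 1)), a ≠ 0 → Km ζ g (j (qu s a)) x := by
    by_cases a0 : a = 0
    · exact ⟨0, fun e => absurd a0 e⟩
    · exact (km_ex hζ h1 (qu_ne q a0) (hg _)).imp fun _ e _ => e
  choose lam hm using ex
  have nd {x : ℤ} (e : IsCoprime x (l : ℤ)) (d : (l : ℤ) ∣ x) : False :=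
    (Nat.prime_iff_prime_int.1 o.1).not_unit (e.isUnit_of_dvd' d dvd_rfl)
  refine ⟨lam, ⟨fun a b a0 b0 => ?_, fun a a0 => ?_, fun x a a0 e => ?_, fun a x a0 e e' => ?_⟩, hm⟩
  · refine km_uq hζ (qu_ne q (mul_ne_zero a0 b0)) (hm _ (mul_ne_zero a0 b0)) ?_
    have := km_mul hζ h1 (qu_ne q a0) (qu_ne q b0) (hm a a0) (hm b b0)
    rwa [← map_mul, show qu s a * qu s b = qu s (a * b) by simp [qu, div_mul_div_comm]] at this
  · refine km_uq hζ (qu_ne q a0) ?_ (hm a a0)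
    have := hm _ (neg_ne_zero.2 a0)
    rwa [show qu s (-a) = qu s a by simp [qu, neg_div_neg_eq]] at this
  · refine km_uq hζ (qu_ne q a0) (hm _ a0) (km_zero fun y hy => ?_)
    have m (b : 𝓞 K) : iz j (l * b) ∈ P := by
      rw [map_mul, map_natCast]
      exact Ideal.mul_mem_right _ _ o.2.2
    refine fix_quo o f hl (a := iz j _) (b := iz j (s _)) (hg _) (hg _)
      (fun b => nd e (ov_dvd o ?_)) ?_ (hy.trans (map_div₀ j _ _))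
    · rw [map_add, map_intCast, map_mul, map_natCast, map_add, map_intCast] at b
      exact (Ideal.add_mem_iff_left _ (m _)).1 b
    · rw [← map_sub, map_add s, map_intCast, map_mul s, map_natCast, add_sub_add_left_eq_sub, ← mul_sub]
      exact m _
  · have x0 : x ≠ 0 := fun b => nd e' (b ▸ dvd_zero _)
    rw [par_qu q hζ hg x0 e (hm a a0)]
    refine ch_fb o f (fun b => ?_) (nd e')
    rw [b, Nat.mod_eq_of_lt (by have := Nat.one_lt_two_pow n.succ_ne_zero; omega)] at hl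
    omega

theorem fix_open (g : GQ) (y : Qb) : IsOpen {x : GQ | x y = g y} := by
  convert (P022E.GW.Kc.stab_open y).preimage (continuous_mul_left g⁻¹) using 1
  ext x
  exact ⟨fun h => by
    show g⁻¹ (x y) = y
    rw [h]; exact g.symm_apply_apply y, fun h => by
    have : g⁻¹ (x y) = y := h
    exact (g.symm_apply_eq.1 this)⟩

/-- the character -/
theorem ex_chi {n : ℕ} (h2 : RC2) (h3 : RC3) (kd : Kd j δ) (q : Qd (JJ j) ω s)
    (hθ : θ ^ 2 = -(δ : 𝓞 K)) {r : ClassGroup (𝓞 K) → (Ideal (𝓞 K))⁰} (r1 : r 1 = 1)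
    (hr : ∀ x, ClassGroup.mk0 (r x) = x⁻¹) (hζ : IsPrimitiveRoot ζ (2 * 2 ^ (n + 1))) (o : Ov l P)
    (nδ : ¬ (l : ℤ) ∣ -δ) (hg : g ∈ GK j) (f : Fb l P g) (md : l % (2 * 2 ^ (n + 1)) = 1)
    (hA : ∀ x y, Km ζ g (j (qu s (gn (K := K) (r x * r y * r (x * y)⁻¹ : (Ideal (𝓞 K))⁰))))
      (0 : ZMod (2 * 2 ^ (n + 1)))) :
    ∃ e : GQ → ZMod (2 * 2 ^ (n + 1)), (∀ x ∈ GK j, ∀ y ∈ GK j, e (x * y) = e x + e y) ∧
      (∀ x ∈ Hc j l, e x = 0) ∧ (∀ Q', Ov l Q' → ∃ τ, Inert Q' τ ∧ e τ = 1) ∧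
      ∀ p Q φ β y v, Ov p Q → p ≠ l → φ ∈ GK j → Fb p Q φ → β ≠ 0 →
        below j Q * (r y : Ideal (𝓞 K)) = Ideal.span {β} → Km ζ g (j (qu s β)) v → e φ = v := by
  have hl := o.1
  have l2 : l ≠ 2 := fun b => by
    rw [b, Nat.mod_eq_of_lt (by have := Nat.one_lt_two_pow n.succ_ne_zero; omega)] at md
    omega
  have tr (x y) : ClassGroup.mk0 (r x * r y * r (x * y)⁻¹) = 1 := by
    rw [map_mul, map_mul, hr, hr, hr, ← mul_inv, ← mul_inv, mul_inv_cancel, inv_one]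
  obtain ⟨lam, hm, z⟩ := lam1 q hζ o hg f md
  obtain ⟨F, f1, f2, f3⟩ := ex_f kd.upm hm r1 hr fun x y =>
    km_uq hζ (qu_ne q (gn_ne (tr x y))) (z _ (gn_ne (tr x y))) (hA x y)
  obtain ⟨e, add, ker, he⟩ := ex_e (j := j) h2 kd.iq (c := l) hl.pos f1 fun x a h => by
    have a0 := mt Ideal.span_singleton_eq_bot.2 h.1
    rw [f2 _ a0, hm.rc x a a0 (q.cop_int h)]
  refine ⟨e, add, ker, fun Q' o' => ?_, fun p Q φ β y v op ne m fp β0 e1 e2 => ?_⟩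
  · refine ram h2 h3 kd q hθ hl (c := 1) one_pos hl.not_dvd_one l2 ?_ add (by rwa [one_mul])
      (fun β x g b0 e2 cp a => ?_) o'
    · rw [← ch_fb o f l2 nδ]
      exact if_pos ((kd.gk _).1 hg)
    · rw [one_mul] at cp a
      rw [he _ _ (cop_nm b0 e2 cp) a, f2 _ b0, hm.par β x b0 e2 cp, one_mul]
  · have pl : ¬ p ∣ l := fun a => ne ((Nat.prime_dvd_prime_iff_eq op.1 hl).1 a)
    have lm : (p : 𝓞 K) ∈ below j Q := by rw [mem_below, map_natCast]; exact op.2.2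
    have nb := norm_below kd.iq op fp m
    have ar := (h2 K j kd.iq l hl.pos).2.2.2.2.2.2 Q op.2.1
      (fun a => op.1.ne_zero (by simpa [a] using op.2.2))
      (fun a => pl (Int.natCast_dvd_natCast.1 (ov_dvd op (by simpa using a)))) _ m 1
      (by simpa only [nb, pow_one, Fb] using fp)
    obtain ⟨u, w, uv⟩ := Nat.isCoprime_iff_coprime.2 ((Nat.Prime.coprime_iff_not_dvd op.1).2 pl)
    rw [pow_one] at ar
    have I0 : below j Q ≠ ⊥ := fun a => op.1.ne_zero (by simpa [a] using lm)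
    rw [he _ _ (cop_of I0 (Ideal.mul_mem_left _ (u : 𝓞 K) lm) (b := w)
      (by rw [mul_comm (l : 𝓞 K)]; exact_mod_cast congrArg (Int.cast : ℤ → 𝓞 K) uv)) ar]
    obtain ⟨y', γ, γ0, a1, a2⟩ := f3 _ I0
    have cl {y γ} (a : below j Q * (r y : Ideal (𝓞 K)) = Ideal.span {γ}) :
        ClassGroup.mk0 ⟨_, mem_nonZeroDivisors_of_ne_zero I0⟩ = y := by
      have a3 : ClassGroup.mk0 (⟨_, mem_nonZeroDivisors_of_ne_zero I0⟩ * r y) = 1 :=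
        (ClassGroup.mk0_eq_one_iff _).2 ⟨γ, a⟩
      rwa [map_mul, hr, mul_inv_eq_one] at a3
    rw [a2, ← f2 _ γ0, ← a1, ← cl a1, cl e1, e1, f2 _ β0]
    exact km_uq hζ (qu_ne q β0) (z _ β0) e2

/-- the arithmetic data -/
theorem ex_dat (kd : Kd j δ) (q : Qd (JJ j) ω s) {S : Finset ℕ} {P : ℕ → Ideal (𝓞 Qb)} {φ : ℕ → GQ}
    (hS : ∀ p ∈ S, Ov p (P p) ∧ dec (P p) ≤ GK j ∧ Fb p (P p) (φ p)) {c : ℕ} (c0 : 0 < c) :
    ∃ (r : ClassGroup (𝓞 K) → (Ideal (𝓞 K))⁰) (β : ℕ → 𝓞 K) (x : ℕ → ℤ), r 1 = 1 ∧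
      (∀ x, ClassGroup.mk0 (r x) = x⁻¹) ∧ (∀ p ∈ S, φ p ∈ GK j ∧ β p ≠ 0 ∧
        (∃ y, below j (P p) * (r y : Ideal (𝓞 K)) = Ideal.span {β p}) ∧
        β p * s (β p) = (p * x p : ℤ) ∧ ∀ l : ℕ, l.Prime → l ∣ c ∨ l ∈ S → ¬ (l : ℤ) ∣ x p) ∧
      ∀ x y, gn (K := K) (r x * r y * r (x * y)⁻¹ : (Ideal (𝓞 K))⁰) ≠ 0 ∧ ∃ w : ℤ,
        gn (K := K) (r x * r y * r (x * y)⁻¹ : (Ideal (𝓞 K))⁰) *
          s (gn (K := K) (r x * r y * r (x * y)⁻¹ : (Ideal (𝓞 K))⁰)) = w ∧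
        ∀ l : ℕ, l.Prime → l ∣ c ∨ l ∈ S → ¬ (l : ℤ) ∣ w := by
  obtain ⟨r, r1, hr⟩ := ex_rep K (m := c * ∏ p ∈ S, p)
    (Nat.mul_pos c0 (Finset.prod_pos fun p m => (hS p m).1.1.pos))
  have cp (l : ℕ) (hl : l.Prime) (d : l ∣ c ∨ l ∈ S) (x) : ¬ l ∣ Ideal.absNorm (r x : Ideal (𝓞 K)) :=
    fun e => hl.one_lt.ne' (Nat.eq_one_of_dvd_coprimes (hr x).2 e (d.elim (·.mul_right _)
      fun m => (Finset.dvd_prod_of_mem _ m).mul_left _))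
  have tr (x y) : ClassGroup.mk0 (r x * r y * r (x * y)⁻¹) = 1 := by
    rw [map_mul, map_mul, (hr _).1, (hr _).1, (hr _).1, ← mul_inv, ← mul_inv, mul_inv_cancel, inv_one]
  have mφ (p) (m : p ∈ S) : φ p ∈ GK j :=
    (hS p m).2.1 (P022D.W.phi_mem (hS p m).1.1 (hS p m).1.2.1 (hS p m).2.2)
  have nb (p) (m : p ∈ S) := norm_below kd.iq (hS p m).1 (hS p m).2.2 (mφ p m)
  have n0 (p) (m : p ∈ S) : below j (P p) ∈ (Ideal (𝓞 K))⁰ := mem_nonZeroDivisors_of_ne_zero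
    fun e => (hS p m).1.1.ne_zero (by rw [← nb p m, e]; simp)
  have hβ (p : ℕ) : ∃ (β : 𝓞 K) (x : ℤ), ∀ m : p ∈ S,
      below j (P p) * r (ClassGroup.mk0 ⟨_, n0 p m⟩) = Ideal.span {β} ∧ β * s β = (p * x : ℤ) ∧
        ∀ l : ℕ, l.Prime → l ∣ c ∨ l ∈ S → ¬ (l : ℤ) ∣ x := by
    by_cases m : p ∈ S
    swap
    · exact ⟨0, 0, fun a => absurd a m⟩
    have e := gn_sp (I := ⟨_, n0 p m⟩ * r (ClassGroup.mk0 ⟨_, n0 p m⟩))
      (by rw [map_mul, (hr _).1, mul_inv_cancel])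
    obtain ⟨x, hx⟩ := q.nm (gn (K := K) (⟨_, n0 p m⟩ * r (ClassGroup.mk0 ⟨_, n0 p m⟩) : (Ideal (𝓞 K))⁰))
    have e1 := nm_eq kd.iq q hx
    rw [← e, Submonoid.coe_mul, map_mul, nb p m] at e1
    obtain ⟨y, rfl⟩ : (p : ℤ) ∣ x := Int.natCast_dvd.2 ⟨_, e1.symm⟩
    rw [Int.natAbs_mul, Int.natAbs_natCast, Nat.mul_right_inj (hS p m).1.1.ne_zero] at e1
    exact ⟨_, y, fun _ => ⟨e, hx, fun l hl d a => cp l hl d _ (e1 ▸ Int.natCast_dvd.1 a)⟩⟩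
  choose β x hβ using hβ
  refine ⟨r, β, x, r1, fun x => (hr x).1, fun p m => ⟨mφ p m, fun e => mul_ne_zero
    (nonZeroDivisors.ne_zero (n0 p m)) (nonZeroDivisors.coe_ne_zero _)
      ((hβ p m).1.trans (by simp [e])), ⟨_, (hβ p m).1⟩, (hβ p m).2⟩,
    fun x y => ⟨gn_ne (tr x y), ?_⟩⟩
  obtain ⟨w, hy⟩ := q.nm (gn (K := K) (r x * r y * r (x * y)⁻¹ : (Ideal (𝓞 K))⁰))
  have e := nm_eq kd.iq q hy
  rw [← gn_sp (tr _ _), Submonoid.coe_mul, Submonoid.coe_mul, map_mul, map_mul] at e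
  refine ⟨w, hy, fun l hl d a => ?_⟩
  rw [Int.natCast_dvd, ← e, hl.dvd_mul, hl.dvd_mul] at a
  exact a.elim (fun a => a.elim (cp l hl d _) (cp l hl d _)) (cp l hl d _)

theorem cheb (u : GQ) {W : Subgroup GQ} (hW : IsOpen (W : Set GQ)) (A : Finset Qb) (T : Finset ℕ) :
    ∃ l ψ Q, l ∉ T ∧ Ov l Q ∧ Fb l Q ψ ∧ u⁻¹ * ψ ∈ W ∧ ∀ y ∈ A, ψ y = u y := by
  obtain ⟨l, ψ, hl, hT, ⟨Q, p1, p2, f⟩, m1, m2⟩ := P022K.Cheb.exists_fr (g := u)
    ((hW.preimage (continuous_mul_left u⁻¹)).inter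
      (isOpen_biInter_finset (s := A) fun y _ => fix_open u y)) ⟨by simp [one_mem], by simp⟩ T
  exact ⟨l, ψ, Q, hT, ⟨hl, p1, p2⟩, f, m1, by simpa using m2⟩

theorem typ' (kd : Kd j δ) (q : Qd (JJ j) ω s) (hθ : θ ^ 2 = -(δ : 𝓞 K)) (hl : l.Prime) (l2 : l ≠ 2)
    (hδ : J(-δ | l) = 1) : Typ K l (l - 1) := by
  have := Fact.mk hl
  obtain ⟨t, ht⟩ := ZMod.isSquare_of_jacobiSym_eq_one hδ
  have t0 : t ≠ 0 := fun a => by
    rw [a, zero_mul, ZMod.intCast_zmod_eq_zero_iff_dvd] at ht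
    rw [jacobiSym.mod_left, Int.emod_eq_zero_of_dvd ht, jacobiSym.zero_left hl.one_lt] at hδ
    exact zero_ne_one hδ
  obtain ⟨t, rfl⟩ := ZMod.intCast_surjective t
  push_cast at ht
  refine typ q (Nat.pos_of_ne_zero kd.sq.ne_zero) hθ hl (t := t)
    ((ZMod.intCast_zmod_eq_zero_iff_dvd _ l).1 (by push_cast; linear_combination -ht)) fun d => ?_
  rw [← ZMod.intCast_zmod_eq_zero_iff_dvd, Int.cast_mul, mul_eq_zero] at d
  exact d.elim (by exact_mod_cast Ring.two_ne_zero (R := ZMod l) (by rwa [ZMod.ringChar_zmod_n])) t0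

/-- **one more prime** -/
theorem pert (h2 : RC2) (h3 : RC3) (kd : Kd j δ) {S : Finset ℕ} {P : ℕ → Ideal (𝓞 Qb)} {φ : ℕ → GQ}
    (hS : ∀ p ∈ S, Ov p (P p) ∧ dec (P p) ≤ GK j ∧ Fb p (P p) (φ p)) (S2 : 2 ∈ S)
    {U : Subgroup GQ} {G : GQ → Prop} {N : ℕ} (nz : Nz j U G N) (n : ℕ)
    (b : ℕ → ZMod (2 * 2 ^ (n + 1))) (b2 : b 2 = 0) : ∃ g ∈ GK j,
    ∀ τ ∈ GK j, ∀ c, IsConj c → c ∉ GK j → (∀ i, Fx {1} (2 ^ i) τ) →
    ∀ t ∈ GK j, t = τ * (c * τ * c⁻¹)⁻¹ → t ∈ U →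
    ∀ (W : Subgroup GQ) (T : Finset ℕ), IsOpen (W : Set GQ) →
    ∃ (q : ℕ) (Q : Ideal (𝓞 Qb)) (ψ : GQ) (e : GQ → ZMod (2 * 2 ^ (n + 1))), q ∉ T ∧ Ov q Q ∧
      ψ ∈ GK j ∧ Fb q Q ψ ∧ q % 2 ^ (n + 3) = 1 ∧ Typ K q (q - 1) ∧ (g * t)⁻¹ * ψ ∈ W ∧ G ψ ∧
      (∀ x ∈ GK j, ∀ y ∈ GK j, e (x * y) = e x + e y) ∧ (∀ x ∈ Hc j q, e x = 0) ∧
      (∀ Q', Ov q Q' → ∃ τ, Inert Q' τ ∧ e τ = 1) ∧ ∀ p ∈ S, e (φ p) = N * b p := by
  classical
  obtain ⟨ω, s, q⟩ := ex_q j kd.iq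
  obtain ⟨θ, hθ⟩ : ∃ θ : 𝓞 K, θ ^ 2 = -(δ : 𝓞 K) := by
    obtain ⟨θ, e⟩ := kd.rt
    refine ⟨⟨θ, IsIntegral.of_pow two_pos (e ▸ (isIntegral_natCast δ).neg)⟩, RingOfIntegers.ext ?_⟩
    exact (map_pow (algebraMap (𝓞 K) K) _ 2).trans (e.trans (by simp))
  obtain ⟨r, β, x, r1, hr, hβ, hα⟩ := ex_dat kd q hS one_pos
  obtain ⟨ζ, hζ⟩ := HasEnoughRootsOfUnity.exists_primitiveRoot Qb (2 * 2 ^ (n + 1))
  obtain ⟨ξ, hξ⟩ := HasEnoughRootsOfUnity.exists_primitiveRoot Qb (2 ^ (n + 3))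
  obtain ⟨g, g1, g2, g3, g4⟩ := ex_g q hζ (P := P) (β := β) (x := x) b (S.erase 2) fun p m =>
    have m' := Finset.mem_of_mem_erase m
    ⟨(hS p m').1, Finset.ne_of_mem_erase m, (hS p m').2.1, (hβ p m').2.2.2.1, fun l a =>
      (hβ p m').2.2.2.2 l (hS l (Finset.mem_of_mem_erase a)).1.1 (.inr (Finset.mem_of_mem_erase a))⟩
  have nd (l : ℕ) (hl : l.Prime) (d : l ∈ S) (p) (m : p ∈ S) (ne : l ≠ p) :
      ¬ (l : ℤ) ∣ p * x p := fun a => ((Nat.prime_iff_prime_int.1 hl).dvd_or_dvd a).elim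
    (fun a => ne ((Nat.prime_dvd_prime_iff_eq hl (hS p m).1.1).1 (Int.natCast_dvd_natCast.1 a)))
    ((hβ p m).2.2.2.2 l hl (.inr d))
  have g5 (p) (m : p ∈ S) : Km ζ g (j (qu s (β p))) (b p) := by
    by_cases p2 : p = 2
    · subst p2
      exact b2 ▸ g3 _ _ (hβ 2 m).2.2.2.1 fun l a => nd l (hS l (Finset.mem_of_mem_erase a)).1.1
        (Finset.mem_of_mem_erase a) 2 m (Finset.ne_of_mem_erase a)
    · exact g4 p (Finset.mem_erase.2 ⟨p2, m⟩)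
  obtain ⟨h, k1, k2, k3⟩ := nz.ex
  obtain ⟨k, hk⟩ := k3 g g2
  have k4 (i) : Fx {1} (2 ^ i) (h ^ k) := fx_pow (fun y hy => k2 i y ⟨1, by simp, by
    rw [map_one]; exact hy.symm⟩) k
  have e2 := pow_succ' 2 (n + 1)
  refine ⟨g ^ N * h ^ k, mul_mem (pow_mem g1 N) (pow_mem k1 k),
    fun τ τ1 c c1 c2 τ2 t t1 t2 t3 W T hW => ?_⟩
  have t4 (i) : Fx {1} (2 ^ i) t := t2 ▸ fx_mul (τ2 i) (fx_inv (fx_cj (τ2 i) c))
  have key (a : 𝓞 K) (a0 : a ≠ 0) (v : ZMod (2 * 2 ^ (n + 1))) (e4 : Km ζ g (j (qu s a)) v) :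
      Km ζ (g ^ N * h ^ k * t) (j (qu s a)) ((N : ZMod (2 * 2 ^ (n + 1))) * v) := by
    obtain ⟨w, hw⟩ := km_ex hζ (e2 ▸ τ2 _) (qu_ne q a0) (τ1 _)
    simpa using km_comp hζ (e2 ▸ fx_mul (fx_pow (g2 _) N) (k4 _)) (km_comp hζ (e2 ▸ fx_pow (g2 _) N)
      (km_pow hζ (e2 ▸ g2 _) e4 N)
      (km_zero (ζ := ζ) (g := h ^ k) fun z hz => fx_pow (k2 (n + 1 + 1)) k z
        ⟨_, (map_ne_zero j).1 (qu_ne q a0), by rw [e2]; exact hz.symm⟩))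
      (km_zero (ζ := ζ) (g := t) fun z hz => t2 ▸ km_cj hζ c1 (qu_ne q a0) (by
        rw [qu, map_div₀, map_div₀, cj_out q c2, cj_out q c2, q.ss, inv_div]) hw hz)
  choose rt hrt using fun u : Qb => Xt.rt (2 * 2 ^ (n + 1)) u
  obtain ⟨A, A2, A3⟩ : ∃ A : Finset (𝓞 K), (∀ p ∈ S, β p ∈ A) ∧ ∀ x y,
      gn (K := K) (r x * r y * r (x * y)⁻¹ : (Ideal (𝓞 K))⁰) ∈ A :=
    ⟨S.image β ∪ Finset.univ.image fun t : ClassGroup (𝓞 K) × ClassGroup (𝓞 K) =>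
      gn (K := K) (r t.1 * r t.2 * r (t.1 * t.2)⁻¹ : (Ideal (𝓞 K))⁰),
      fun p m => Finset.mem_union_left _ (Finset.mem_image_of_mem _ m),
      fun x y => Finset.mem_union_right _ (Finset.mem_image.2 ⟨(x, y), Finset.mem_univ _, rfl⟩)⟩
  have hG : GK j = P004S.kn (-(δ : ℤ)) := Subgroup.ext kd.gk
  have u1 := mul_mem (mul_mem (pow_mem g1 N) (pow_mem k1 k)) t1
  have u2 := fun i => fx_mul (fx_mul (fx_pow (g2 i) N) (k4 i)) (t4 i)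
  have u3 := nz.stb _ _ t3 hk
  generalize g ^ N * h ^ k * t = u at key u1 u2 u3 ⊢
  obtain ⟨l, ψ, Q, hT, o, f, ⟨⟨m1, m2⟩, m3⟩, m4⟩ := cheb u (W := W ⊓ U ⊓ P004S.kn (-(δ : ℤ)))
    ((hW.inter nz.opn).inter (P004S.kn_open _)) (insert ξ (A.image fun a => rt (j (qu s a))))
    (T ∪ S ∪ δ.primeFactors)
  simp only [Finset.mem_union, not_or] at hT
  have hl := o.1
  have l2 : l ≠ 2 := fun e => hT.1.2 (e ▸ S2)
  have hψ : ψ ∈ GK j := mul_inv_cancel_left u ψ ▸ mul_mem u1 (hG ▸ m3 : u⁻¹ * ψ ∈ GK j)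
  have nδ : ¬ (l : ℤ) ∣ -δ := fun a => hT.2 (Nat.mem_primeFactors.2
    ⟨hl, Int.natCast_dvd_natCast.1 (dvd_neg.1 a), kd.sq.ne_zero⟩)
  have md : l % 2 ^ (n + 3) = 1 := mod_one o f (nd_two o l2 _) (Nat.one_lt_two_pow (by omega)) hξ
    ((m4 ξ (Finset.mem_insert_self _ _)).trans (u2 _ ξ hξ.pow_eq_one))
  have md' : l % (2 * 2 ^ (n + 1)) = 1 := by
    rw [← Nat.mod_mod_of_dvd _ (show 2 * 2 ^ (n + 1) ∣ 2 ^ (n + 3) from ⟨2, by ring⟩), md,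
      Nat.mod_eq_of_lt (by have := Nat.one_lt_two_pow n.succ_ne_zero; omega)]
  have val (a : 𝓞 K) (a0 : a ≠ 0) (v : ZMod (2 * 2 ^ (n + 1))) (m : a ∈ A)
      (e : Km ζ u (j (qu s a)) v) : Km ζ ψ (j (qu s a)) v :=
    km_of (fx_one o f md') (qu_ne q a0) (hrt _) ((m4 _ (Finset.mem_insert_of_mem
      (Finset.mem_image.2 ⟨a, m, rfl⟩))).trans (e _ (hrt _)))
  obtain ⟨e, add, ker, rm, he⟩ := ex_chi h2 h3 kd q hθ r1 hr hζ o nδ hψ f md'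
    fun x y => by
      obtain ⟨a0, w, a1, a2⟩ := hα x y
      exact val _ a0 _ (A3 x y) (by simpa using (key _ a0 _ (g3 _ w a1 fun l a =>
          a2 l (hS l (Finset.mem_of_mem_erase a)).1.1 (.inr (Finset.mem_of_mem_erase a)))))
  exact ⟨l, Q, ψ, e, hT.1.1, o, hψ, f, md, typ' kd q hθ hl l2 ((ch_fb o f l2 nδ).symm.trans
    (if_pos ((kd.gk _).1 hψ))), m1, mul_inv_cancel_left u ψ ▸ nz.stb _ _ m2 u3,
    add, ker, rm, fun p m =>
      let ⟨a, b0, ⟨_, b1⟩, _⟩ := hβ p m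
      he p _ _ _ _ _ (hS p m).1 (fun a => hT.1.2 (a ▸ m)) a (hS p m).2.2 b0 b1 (val _ b0 _ (A2 p m)
        (key _ b0 _ (g5 p m)))⟩

end Vale.Agent.P004F.Pt
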